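import Vale.Agent.P067.Alld.Descent.Height

/-!
P067, module II-e: the lattices between `L` and `t L` and the neighbours of the class of `L`.
-/

namespace Vale.Agent.P067.Alld.Bld.Descent

open Finset Module

variable {p : ℕ} [Fact p.Prime] {n : ℕ}

/-- `W` lies between `L` and `t L`. -/
def Between (L : BVert p n) (W : Submodule (ZMod p) (LV p)) : Prop :=
  L.1 ≤ W ∧ W ≤ L.1.map (sh p n)

theorem map_sh_injective (c : ℤ) {W W' : Submodule (ZMod p) (LV p)}
    (h : W.map (sh p c) = W'.map (sh p c)) : W = W' := by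
  simpa [map_sh_sh, map_sh_zero] using congrArg (Submodule.map (sh p (-c))) h

theorem map_sh_neg_cancel (W : Submodule (ZMod p) (LV p)) :
    (W.map (sh p (-(n : ℤ)))).map (sh p n) = W := by
  simp [map_sh_sh, map_sh_zero]

theorem rel_refl (W : BVert p n) : Rel W W := Or.inl ⟨le_rfl, map_sh_le_self W.2.1⟩

theorem _root_.Vale.Agent.P067.Alld.Bld.Rel.symm {W W' : BVert p n} (h : Rel W W') : Rel W' W := Or.symm h

variable {L : BVert p n} {W : Submodule (ZMod p) (LV p)}

theorem Between.isLat (h : Between L W) : IsLat p n W := by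
  refine ⟨?_, ?_⟩
  · refine le_trans ?_ h.1
    have := Submodule.map_mono (f := sh p (-(n : ℤ))) h.2
    simpa [map_sh_sh, map_sh_zero] using this
  · obtain ⟨a, -, ha, -⟩ := L.2.1.2
    obtain ⟨-, b, -, hb⟩ := (L.2.1.map_sh n).2
    exact ⟨a, b, ha.trans h.1, h.2.trans hb⟩

theorem top_tL (L : BVert p n) (c : Fin n) :
    top n (L.1.map (sh p n)) c = top n L.1 c + n := by
  simpa using top_map_sh L.2.1 1 c

variable (L) in
/-- The residues in which `W` has a larger lead than `L`. -/
noncomputable def resSet (W : Submodule (ZMod p) (LV p)) : Finset (Fin n) :=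
  univ.filter fun c => top n W c = top n L.1 c + n

theorem Between.top_eq (h : Between L W) (c : Fin n) :
    top n W c = if c ∈ resSet L W then top n L.1 c + n else top n L.1 c := by
  split_ifs with hc
  · exact (mem_filter.1 hc).2
  · have h1 := top_mono L.2.1 h.isLat h.1 c
    have h2 := (top_tL L c) ▸ top_mono h.isLat (L.2.1.map_sh n) h.2 c
    have hne : top n W c ≠ top n L.1 c + n := fun e => hc (mem_filter.2 ⟨mem_univ _, e⟩)
    obtain ⟨q, hq⟩ : (n : ℤ) ∣ top n W c - top n L.1 c := by
      rw [Int.dvd_iff_emod_eq_zero, Int.sub_emod, (top_spec h.isLat c).1, (top_spec L.2.1 c).1,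
        sub_self, Int.zero_emod]
    have hq0 : 0 ≤ q := by have := c.pos; nlinarith
    have hq1 : q < 1 := by
      by_contra hge
      exact hne (by nlinarith)
    rw [show q = 0 by omega, mul_zero] at hq
    omega

theorem Between.idx_eq (h : Between L W) (hn : 0 < n) :
    idx n W = jv L + (resSet L W).card := by
  have hs := sum_top_idx hn h.isLat
  simp only [h.top_eq, sum_ite, sum_add_distrib, filter_mem_eq_inter, univ_inter, sum_const,
    nsmul_eq_mul] at hs
  rw [add_right_comm, show ∑ c ∈ resSet L W, top n L.1 c +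
      ∑ c ∈ univ.filter (fun c => c ∉ resSet L W), top n L.1 c = ∑ c, top n L.1 c by
    rw [← sum_filter_add_sum_filter_not univ (· ∈ resSet L W)]
    simp, sum_top_idx hn L.2.1, (jv_spec hn L).1] at hs
  have : (n : ℤ) * idx n W = n * (jv L + (resSet L W).card) := by linarith
  exact mul_left_cancel₀ (by omega) this

theorem Between.xv_eq (h : Between L W) (hn : 0 < n) (c : Fin n) :
    xv n W c = shiftX (xv n L.1) (resSet L W) c := by
  rw [xv, shiftX, h.idx_eq hn, h.top_eq c, xv, (jv_spec hn L).1]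
  split_ifs <;> ring

theorem Between.resSet_ne_empty (h : Between L W) (hn : 0 < n) (hne : W ≠ L.1) :
    resSet L W ≠ ∅ := fun he =>
  hne (eq_of_top_le hn L.2.1 h.isLat h.1 fun c => by rw [h.top_eq c, he, if_neg (by simp)]).symm

theorem Between.resSet_ne_univ (h : Between L W) (hn : 0 < n)
    (hne : W ≠ L.1.map (sh p n)) : resSet L W ≠ univ := fun he =>
  hne (eq_of_top_le hn h.isLat (L.2.1.map_sh n) h.2 fun c => by
    rw [h.top_eq c, he, if_pos (mem_univ c), top_tL])

theorem Between.card_lt (h : Between L W) (hn : 0 < n) (hne : W ≠ L.1.map (sh p n)) :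
    (resSet L W).card < n := by
  simpa using card_lt_card (ssubset_univ_iff.2 (h.resSet_ne_univ hn hne))

/-- The representative of index in `[0, n)`. -/
noncomputable def repSub (n : ℕ) (W : Submodule (ZMod p) (LV p)) : Submodule (ZMod p) (LV p) :=
  if idx n W < n then W else W.map (sh p (-(n : ℤ)))

variable (L) in
/-- The vertex of a lattice between `L` and `t L`. -/
noncomputable def toV (W : Submodule (ZMod p) (LV p)) : BVert p n := by
  classical
  exact if h : IsLat p n (repSub n W) ∧ ∃ j : ℕ, j < n ∧ HasIdx p (repSub n W) j then ⟨_, h⟩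
    else L

/-- `W` strictly between `L` and `t L`, or equal to `L`. -/
def Below (L : BVert p n) (W : Submodule (ZMod p) (LV p)) : Prop :=
  Between L W ∧ W ≠ L.1.map (sh p n)

theorem idx_map_neg (hn : 0 < n) (hW : IsLat p n W) :
    idx n (W.map (sh p (-(n : ℤ)))) = idx n W - n := by
  simpa [sub_eq_add_neg] using idx_map_sh hn hW (-1)

theorem toV_spec (hn : 0 < n) (h : Below L W) :
    (toV L W).1 = repSub n W ∧ jv (toV L W) = (jv L + (resSet L W).card) % n ∧
      xv n (toV L W).1 = shiftX (xv n L.1) (resSet L W) := by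
  classical
  have hj := h.1.idx_eq hn
  have hlt := h.1.card_lt hn h.2
  have hL := (jv_spec hn L).2
  have hW := h.1.isLat
  have key : IsLat p n (repSub n W) ∧
      idx n (repSub n W) = (((jv L + (resSet L W).card) % n : ℕ) : ℤ) ∧
      xv n (repSub n W) = xv n W := by
    unfold repSub
    split_ifs with hi
    · refine ⟨hW, ?_, rfl⟩
      rw [hj] at hi ⊢
      rw [Nat.mod_eq_of_lt (by omega)]
      push_cast; ring
    · refine ⟨hW.map_sh _, ?_, funext fun c => by simpa using xv_map_sh hn hW (-1) c⟩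
      rw [idx_map_neg hn hW, hj]
      rw [hj] at hi
      rw [Nat.mod_eq_sub_mod (by omega), Nat.mod_eq_of_lt (by omega)]
      omega
  obtain ⟨hlat, hidx, hxv⟩ := key
  have hcond : IsLat p n (repSub n W) ∧ ∃ j : ℕ, j < n ∧ HasIdx p (repSub n W) j :=
    ⟨hlat, _, Nat.mod_lt _ hn, hidx ▸ hasIdx_idx hn hlat⟩
  have h1 : (toV L W).1 = repSub n W := by rw [toV, dif_pos hcond]
  refine ⟨h1, ?_, ?_⟩
  · rw [jv, h1, hidx, Int.toNat_natCast]
  · rw [h1, hxv]
    exact funext (h.1.xv_eq hn)

theorem hgt_toV (hn : 0 < n) (h : Below L W) :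
    hgt (toV L W) =
      heightX (shiftX (xv n L.1) (resSet L W)) ((jv L + (resSet L W).card) % n) := by
  obtain ⟨-, h2, h3⟩ := toV_spec hn h
  rw [hgt, h2, h3]

theorem below_self (hn : 0 < n) (L : BVert p n) : Below L L.1 := by
  refine ⟨⟨le_rfl, map_sh_le_self L.2.1⟩, fun e => ?_⟩
  have := congrArg (idx n) e
  rw [show L.1.map (sh p n) = L.1.map (sh p (n * 1)) by simp, idx_map_sh hn L.2.1] at this
  omega

theorem toV_self (hn : 0 < n) (L : BVert p n) : toV L L.1 = L := by
  refine Subtype.ext ?_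
  rw [(toV_spec hn (below_self hn L)).1, repSub, if_pos]
  have := jv_spec hn L
  omega

theorem rel_toV {W₁ W₂ : Submodule (ZMod p) (LV p)} (hn : 0 < n) (h1 : Below L W₁)
    (h2 : Below L W₂) (hle : W₁ ≤ W₂) : Rel (toV L W₁) (toV L W₂) := by
  have h21 : W₂ ≤ W₁.map (sh p n) := h2.1.2.trans (Submodule.map_mono h1.1.1)
  unfold Rel
  rw [(toV_spec hn h1).1, (toV_spec hn h2).1]
  unfold repSub
  split_ifs with i1 i2 i2
  · exact Or.inl ⟨hle, h21⟩
  · refine Or.inr ⟨?_, ?_⟩
    · simpa [map_sh_le_iff] using h21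
    · rwa [map_sh_neg_cancel]
  · exact absurd ((idx_mono hn h1.1.isLat h2.1.isLat hle).trans_lt i2) i1
  · refine Or.inl ⟨Submodule.map_mono hle, ?_⟩
    rw [map_sh_neg_cancel]
    simpa [map_sh_le_iff] using h21

theorem rel_L_toV (hn : 0 < n) (h : Below L W) : Rel L (toV L W) := by
  have := rel_toV hn (below_self hn L) h h.1.1
  rwa [toV_self hn L] at this

variable (L) in
/-- The lattice between `L` and `t L` of a neighbour of `L`. -/
noncomputable def up (V : BVert p n) : Submodule (ZMod p) (LV p) := by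
  classical
  exact if Between L V.1 then V.1 else V.1.map (sh p n)

theorem up_between {V : BVert p n} (h : Rel L V) : Between L (up L V) := by
  unfold up
  split_ifs with hc
  · exact hc
  · rcases h with h | h
    · exact absurd h hc
    · exact ⟨h.2, Submodule.map_mono h.1⟩

theorem up_ne (hn : 0 < n) {V : BVert p n} (hne : V ≠ L) :
    up L V ≠ L.1 ∧ up L V ≠ L.1.map (sh p n) := by
  obtain ⟨h1, h1'⟩ := jv_spec hn L
  obtain ⟨h2, h2'⟩ := jv_spec hn V
  have hL := idx_map_sh hn L.2.1 1
  have hV := idx_map_sh hn V.2.1 1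
  rw [mul_one, h1] at hL
  rw [mul_one, h2] at hV
  unfold up
  split_ifs with hc
  · refine ⟨fun e => hne (Subtype.ext e), fun e => ?_⟩
    rw [e, hL] at h2
    omega
  · refine ⟨fun e => ?_, fun e => hne (Subtype.ext (map_sh_injective _ e))⟩
    rw [e, h1] at hV
    omega

theorem up_below (hn : 0 < n) {V : BVert p n} (h : Rel L V) (hne : V ≠ L) : Below L (up L V) :=
  ⟨up_between h, (up_ne hn hne).2⟩

theorem toV_up (hn : 0 < n) {V : BVert p n} (h : Rel L V) (hne : V ≠ L) :
    toV L (up L V) = V := by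
  refine Subtype.ext ?_
  rw [(toV_spec hn (up_below hn h hne)).1]
  obtain ⟨h2, h2'⟩ := jv_spec hn V
  unfold up repSub
  split_ifs with hc hi hi
  · rfl
  · omega
  · have hV := idx_map_sh hn V.2.1 1
    rw [mul_one, h2] at hV
    omega
  · simp [map_sh_sh, map_sh_zero]

theorem up_toV (hn : 0 < n) (h : Below L W) : up L (toV L W) = W := by
  unfold up
  rw [(toV_spec hn h).1]
  unfold repSub
  by_cases hi : idx n W < n
  · rw [if_pos hi, if_pos h.1]
  · rw [if_neg hi, if_neg, map_sh_neg_cancel]
    intro hc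
    refine h.2 (le_antisymm h.1.2 ?_)
    simpa [map_sh_neg_cancel] using Submodule.map_mono (f := sh p n) hc.1

theorem up_comparable {V₁ V₂ : BVert p n} (h : Rel V₁ V₂) :
    up L V₁ ≤ up L V₂ ∨ up L V₂ ≤ up L V₁ := by
  unfold up
  split_ifs with c1 c2 c2
  · exact h.imp And.left And.left
  · rcases h with h | h
    · exact Or.inl (h.1.trans (map_sh_le_self V₂.2.1))
    · exact Or.inl h.2
  · rcases h with h | h
    · exact Or.inr h.2
    · exact Or.inr (h.1.trans (map_sh_le_self V₁.2.1))
  · exact h.imp (fun h => Submodule.map_mono h.1) fun h => Submodule.map_mono h.1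

end Vale.Agent.P067.Alld.Bld.Descent
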