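import Vale.Agent.P067.Alld.Descent.Between

/-!
P067, module II-e: coordinates on `t L / L` adapted to the leads of `L`; subspaces of the
coordinate space and the lattices between `L` and `t L`.
-/

namespace Vale.Agent.P067.Alld.Bld.Descent

open Finset Module

variable {p : ℕ} [Fact p.Prime] {n : ℕ}

variable (L : BVert p n)

/-- The residues by decreasing lead. -/
noncomputable def ord : Equiv.Perm (Fin n) := Tuple.sort fun c => -top n L.1 c

theorem ord_strictAnti : StrictAnti fun i => top n L.1 (ord L i) := by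
  have h := Tuple.monotone_sort fun c => -top n L.1 c
  intro a b hab
  rcases (neg_le_neg_iff.1 (h hab.le) : top n L.1 (ord L b) ≤ top n L.1 (ord L a)).lt_or_eq
    with h' | h'
  · exact h'
  · have : ord L b = ord L a := Fin.ext (by
      have h1 := (top_spec L.2.1 (ord L a)).1
      rw [← h', (top_spec L.2.1 (ord L b)).1] at h1
      exact_mod_cast h1)
    exact absurd ((ord L).injective this) hab.ne'

/-- The lead carried by the `i`-th coordinate. -/
noncomputable def key (i : Fin n) : ℤ := top n L.1 (ord L i) + n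

theorem key_lt {i l : Fin n} (h : i < l) : key L l < key L i := by
  have : top n L.1 (ord L l) < top n L.1 (ord L i) := ord_strictAnti L h
  simp only [key]
  omega

theorem ld_key (i : Fin n) : Ld (L.1.map (sh p n)) (key L i) :=
  ld_map_sh.2 (by rw [key, add_sub_cancel_right]; exact (top_spec L.2.1 _).2.1)

theorem not_ld_key (i : Fin n) : ¬ Ld L.1 (key L i) := fun h => by
  have h1 := (ld_iff L.2.1 (c := ord L i)
    (by rw [key, Int.add_emod_right, (top_spec L.2.1 _).1])).1 h
  have := (ord L i).pos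
  simp only [key] at h1
  omega

/-- An element of `t L` with the `i`-th lead. -/
noncomputable def vec (i : Fin n) : LV p := (ld_key L i).choose

theorem vec_spec (i : Fin n) :
    vec L i ∈ L.1.map (sh p n) ∧ vec L i ∈ hi p (key L i - 1) ∧ vec L i (key L i) ≠ 0 :=
  (ld_key L i).choose_spec

/-- The coordinates. -/
noncomputable def coord : (Fin n → ZMod p) →ₗ[ZMod p] LV p :=
  Fintype.linearCombination (ZMod p) (vec L)

theorem coord_mem (u : Fin n → ZMod p) : coord L u ∈ L.1.map (sh p n) := by
  rw [coord, Fintype.linearCombination_apply]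
  exact sum_mem fun i _ => Submodule.smul_mem _ _ (vec_spec L i).1

omit L in
theorem exists_last {u : Fin n → ZMod p} (hu : u ≠ 0) :
    ∃ i, u i ≠ 0 ∧ ∀ l, i < l → u l = 0 := by
  classical
  obtain ⟨i₀, hi₀⟩ := Function.ne_iff.1 hu
  obtain ⟨i, hi, hmax⟩ := (univ.filter fun i => u i ≠ 0).exists_max_image id
    ⟨i₀, mem_filter.2 ⟨mem_univ _, hi₀⟩⟩
  exact ⟨i, (mem_filter.1 hi).2, fun l hl => by
    by_contra h
    exact absurd (hmax l (mem_filter.2 ⟨mem_univ _, h⟩)) (not_le.2 hl)⟩

theorem coord_lead {u : Fin n → ZMod p} {i : Fin n} (h1 : u i ≠ 0) (h2 : ∀ l, i < l → u l = 0) :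
    coord L u ∈ hi p (key L i - 1) ∧ coord L u (key L i) ≠ 0 := by
  rw [coord, Fintype.linearCombination_apply]
  constructor
  · refine sum_mem fun l _ => ?_
    rcases lt_or_ge i l with h | h
    · simp [h2 l h]
    · refine Submodule.smul_mem _ _ (hi_mono ?_ (vec_spec L l).2.1)
      rcases h.lt_or_eq with h | h
      · have := key_lt L h
        omega
      · rw [h]
  · rw [Finsupp.finsetSum_apply, sum_eq_single i (fun l _ hl => ?_) (by simp)]
    · simpa using mul_ne_zero h1 (vec_spec L i).2.2
    · rcases lt_or_gt_of_ne hl with h | h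
      · have := key_lt L h
        simp [mem_hi.1 (vec_spec L l).2.1 (key L i) (by omega)]
      · simp [h2 l h]

theorem eq_zero_of_coord_mem {u : Fin n → ZMod p} (h : coord L u ∈ L.1) : u = 0 := by
  by_contra hu
  obtain ⟨i, h1, h2⟩ := exists_last hu
  exact not_ld_key L i ⟨_, h, coord_lead L h1 h2⟩

theorem map_sh_le_sup : L.1.map (sh p n) ≤ L.1 ⊔ LinearMap.range (coord L) := by
  obtain ⟨a, -, ha, -⟩ := L.2.1.2
  obtain ⟨-, b, -, hb⟩ := (L.2.1.map_sh n).2
  refine le_of_ld_subset (ha.trans le_sup_left) hb (sup_le (map_sh_le_self L.2.1) ?_) fun k hk => ?_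
  · rintro _ ⟨u, rfl⟩
    exact coord_mem L u
  · obtain ⟨i₀, -⟩ : ∃ c : Fin n, k % n = c := exists_res (by
      obtain ⟨-, j, hj, -⟩ := L.2
      omega) k
    obtain ⟨c, hc⟩ := exists_res i₀.pos k
    have h1 := (ld_iff (L.2.1.map_sh n) hc).1 hk
    rw [top_tL] at h1
    rcases le_or_gt k (top n L.1 c) with h | h
    · exact ((ld_iff L.2.1 hc).2 h).mono le_sup_left
    · obtain ⟨q, hq⟩ : (n : ℤ) ∣ k - top n L.1 c := by
        rw [Int.dvd_iff_emod_eq_zero, Int.sub_emod, (top_spec L.2.1 c).1, hc, sub_self,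
          Int.zero_emod]
      have : 0 < q := by nlinarith
      have : q ≤ 1 := by have := c.pos; nlinarith
      have hk' : k = key L ((ord L).symm c) := by
        rw [show q = 1 by omega, mul_one] at hq
        simp only [key, Equiv.apply_symm_apply]
        omega
      obtain ⟨-, hv2, hv3⟩ := vec_spec L ((ord L).symm c)
      rw [hk']
      exact ⟨_, Submodule.mem_sup_right ⟨Pi.single ((ord L).symm c) 1,
        (Fintype.linearCombination_apply_single _ _ _ _).trans (one_smul _ _)⟩, hv2, hv3⟩

/-- The lattice of a subspace of the coordinate space. -/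
noncomputable def latOf (P : Submodule (ZMod p) (Fin n → ZMod p)) : Submodule (ZMod p) (LV p) :=
  L.1 ⊔ P.map (coord L)

/-- The subspace of a lattice between `L` and `t L`. -/
noncomputable def subOf (W : Submodule (ZMod p) (LV p)) : Submodule (ZMod p) (Fin n → ZMod p) :=
  W.comap (coord L)

theorem between_latOf (P : Submodule (ZMod p) (Fin n → ZMod p)) : Between L (latOf L P) := by
  refine ⟨le_sup_left, sup_le (map_sh_le_self L.2.1) ?_⟩
  rintro _ ⟨u, -, rfl⟩
  exact coord_mem L u

theorem subOf_latOf (P : Submodule (ZMod p) (Fin n → ZMod p)) : subOf L (latOf L P) = P := by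
  refine le_antisymm (fun u hu => ?_) fun u hu =>
    Submodule.mem_sup_right (Submodule.mem_map_of_mem hu)
  obtain ⟨l, hl, -, ⟨u', hu', rfl⟩, he⟩ := Submodule.mem_sup.1 hu
  have : coord L (u - u') ∈ L.1 := by rwa [map_sub, ← he, add_sub_cancel_right]
  rwa [sub_eq_zero.1 (eq_zero_of_coord_mem L this)]

theorem latOf_subOf {W : Submodule (ZMod p) (LV p)} (h : Between L W) :
    latOf L (subOf L W) = W := by
  refine le_antisymm (sup_le h.1 ?_) fun w hw => ?_
  · rintro _ ⟨u, hu, rfl⟩
    exact hu
  · obtain ⟨l, hl, -, ⟨u, rfl⟩, rfl⟩ := Submodule.mem_sup.1 (map_sh_le_sup L (h.2 hw))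
    refine Submodule.add_mem_sup hl (Submodule.mem_map_of_mem ?_)
    simpa [subOf] using sub_mem hw (h.1 hl)

/-- The flag of the coordinate space. -/
def flag (p n : ℕ) [Fact p.Prime] (i : ℕ) : Submodule (ZMod p) (Fin n → ZMod p) where
  carrier := {u | ∀ l : Fin n, i ≤ (l : ℕ) → u l = 0}
  add_mem' ha hb l hl := by simp [ha l hl, hb l hl]
  zero_mem' l _ := rfl
  smul_mem' r u hu l hl := by simp [hu l hl]

omit L in
theorem flag_mono : Monotone (flag p n) := fun _ _ h _ hu l hl => hu l (h.trans hl)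

omit L in
theorem flag_top : flag p n n = ⊤ :=
  top_le_iff.1 fun _ _ l hl => absurd hl (not_le.2 l.2)

omit L in
theorem finrank_flag {i : ℕ} (hi : i ≤ n) : finrank (ZMod p) (flag p n i) = i := by
  let e : flag p n i ≃ₗ[ZMod p] (Fin i → ZMod p) :=
    { toFun := fun u l => u.1 (Fin.castLE hi l)
      map_add' := fun _ _ => rfl
      map_smul' := fun _ _ => rfl
      invFun := fun v => ⟨fun l => if h : (l : ℕ) < i then v ⟨l, h⟩ else 0,
        fun l hl => dif_neg (not_lt.2 hl)⟩
      left_inv := fun u => by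
        ext l
        by_cases h : (l : ℕ) < i
        · simp [dif_pos h]
        · simp [dif_neg h, u.2 l (not_lt.1 h)]
      right_inv := fun v => by
        ext l
        simp }
  rw [e.finrank_eq, finrank_fin_fun]

omit L in
theorem mem_leads {P : Submodule (ZMod p) (Fin n → ZMod p)} (i : Fin n) :
    (i : ℕ) ∈ leads (flag p n) n P ↔ ∃ u ∈ P, u i ≠ 0 ∧ ∀ l, i < l → u l = 0 := by
  simp only [leads, mem_filter, mem_range, i.2, true_and]
  have hle : P ⊓ flag p n i ≤ P ⊓ flag p n ((i : ℕ) + 1) :=
    inf_le_inf_left P (flag_mono (Nat.le_succ _))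
  constructor
  · intro h
    obtain ⟨u, ⟨hu, hu1⟩, hu2⟩ := SetLike.not_le_iff_exists.1 fun hge =>
      h.ne (congrArg (fun S : Submodule (ZMod p) (Fin n → ZMod p) => finrank (ZMod p) S)
        (le_antisymm hle hge))
    refine ⟨u, hu, fun h0 => hu2 ⟨hu, fun l hl => ?_⟩, fun l hl => hu1 l (by omega)⟩
    rcases hl.eq_or_lt with e | e
    · exact Fin.ext e ▸ h0
    · exact hu1 l (by omega)
  · rintro ⟨u, hu, h0, h1⟩
    refine Submodule.finrank_lt_finrank_of_lt (lt_of_le_not_ge hle fun hge => h0 ?_)
    exact (hge ⟨hu, fun l hl => h1 l (by omega)⟩).2 i le_rfl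

/-- A set of flag indices as a set of residues. -/
noncomputable def resOf (R : Finset ℕ) : Finset (Fin n) :=
  univ.filter fun c => ((ord L).symm c : ℕ) ∈ R

theorem resSet_eq {W : Submodule (ZMod p) (LV p)} (h : Between L W) :
    resSet L W = resOf L (leads (flag p n) n (subOf L W)) := by
  ext c
  simp only [resOf, mem_filter, mem_univ, true_and, mem_leads, resSet]
  set i₀ := (ord L).symm c with hi₀
  have hkey : key L i₀ = top n L.1 c + n := by rw [key, hi₀, Equiv.apply_symm_apply]
  have hmod : key L i₀ % (n : ℤ) = c := by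
    rw [hkey, Int.add_emod_right, (top_spec L.2.1 c).1]
  have hiff : top n W c = top n L.1 c + n ↔ Ld W (key L i₀) := by
    rw [ld_iff h.isLat hmod, hkey]
    have := top_mono h.isLat (L.2.1.map_sh n) h.2 c
    rw [top_tL] at this
    constructor <;> intro <;> omega
  rw [hiff]
  constructor
  · rintro ⟨w, hw, hwh, hw0⟩
    obtain ⟨l, hl, -, ⟨u, rfl⟩, he⟩ := Submodule.mem_sup.1 (map_sh_le_sup L (h.2 hw))
    have hu : u ≠ 0 := by
      rintro rfl
      rw [map_zero, add_zero] at he
      exact not_ld_key L i₀ ⟨w, he ▸ hl, hwh, hw0⟩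
    obtain ⟨i, hi1, hi2⟩ := exists_last hu
    obtain ⟨hk1, hk2⟩ := coord_lead L hi1 hi2
    have hl' : l = w - coord L u := eq_sub_of_add_eq he
    obtain rfl : i = i₀ := by
      rcases lt_trichotomy i i₀ with hlt | heq | hgt
      · refine absurd ⟨l, hl, ?_, ?_⟩ (not_ld_key L i₀)
        · rw [hl']
          exact sub_mem hwh (hi_mono (by have := key_lt L hlt; omega) hk1)
        · rw [hl', Finsupp.sub_apply,
            mem_hi.1 hk1 (key L i₀) (by have := key_lt L hlt; omega), sub_zero]
          exact hw0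
      · exact heq
      · refine absurd ⟨l, hl, ?_, ?_⟩ (not_ld_key L i)
        · rw [hl']
          exact sub_mem (hi_mono (by have := key_lt L hgt; omega) hwh) hk1
        · rw [hl', Finsupp.sub_apply,
            mem_hi.1 hwh (key L i) (by have := key_lt L hgt; omega), zero_sub, neg_ne_zero]
          exact hk2
    exact ⟨u, show coord L u ∈ W from eq_sub_of_add_eq' he ▸ sub_mem hw (h.1 hl), hi1, hi2⟩
  · rintro ⟨u, hu, h1, h2⟩
    exact ⟨_, hu, coord_lead L h1 h2⟩

end Vale.Agent.P067.Alld.Bld.Descent
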