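import Vale.Agent.P067.Alld.Descent.Lead

/-!
P067, module II-e: the height of a vertex of the building; the good vertices are strictly the
lowest.
-/

namespace Vale.Agent.P067.Alld.Bld.Descent

open Finset Module

variable {p : ℕ} [Fact p.Prime] {n : ℕ}

theorem exists_standard (hn : 0 < n) (x : Fin n → ℤ)
    (hinj : ∀ a b, (n : ℤ) ∣ x a - x b → a = b) :
    ∃ q : Fin n → ℤ, (∀ c, x c - n * q c ∈ Finset.Icc (-(n : ℤ) + 1) 0) ∧
      ∑ c, (x c - n * q c) = S0 n ∧
      ∑ c, (x c - n * q c) ^ 2 = ∑ k ∈ Finset.Icc (-(n : ℤ) + 1) 0, k ^ 2 := by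
  have hn' : (0 : ℤ) < n := by omega
  refine ⟨fun c => -((-x c) / n), ?_⟩
  have he : ∀ c, x c - n * -((-x c) / n) = -((-x c) % n) := fun c => by
    have := Int.emod_add_mul_ediv (-x c) n
    rw [mul_neg]
    omega
  simp only [he]
  have hmem : ∀ c, -((-x c) % n) ∈ Finset.Icc (-(n : ℤ) + 1) 0 := fun c => by
    have := Int.emod_nonneg (-x c) hn'.ne'
    have := Int.emod_lt_of_pos (-x c) hn'
    rw [Finset.mem_Icc]
    omega
  have hi : Function.Injective fun c => -((-x c) % n) := fun a b h => by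
    simp only [neg_inj] at h
    have := Int.ModEq.dvd (a := -x a) (b := -x b) h
    rw [neg_sub_neg] at this
    exact hinj a b this
  have him : univ.image (fun c => -((-x c) % n)) = Finset.Icc (-(n : ℤ) + 1) 0 := by
    refine eq_of_subset_of_card_le (fun k hk => ?_) ?_
    · obtain ⟨c, -, rfl⟩ := mem_image.1 hk
      exact hmem c
    · rw [card_image_of_injective _ hi, Int.card_Icc, card_univ, Fintype.card_fin]
      omega
  refine ⟨hmem, ?_, ?_⟩
  · rw [S0, ← him, sum_image fun a _ b _ h => hi h]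
  · rw [← him, sum_image fun a _ b _ h => hi h]

theorem mem_Icc_of_nonpos (hn : 0 < n) (x : Fin n → ℤ)
    (hinj : ∀ a b, (n : ℤ) ∣ x a - x b → a = b) (hsum : ∑ c, x c = S0 n) (hle : ∀ c, x c ≤ 0)
    (c : Fin n) : x c ∈ Finset.Icc (-(n : ℤ) + 1) 0 := by
  obtain ⟨q, hq, hs, -⟩ := exists_standard hn x hinj
  have hq0 : ∀ c, n * q c ≤ 0 := fun c => by
    have h := Finset.mem_Icc.1 (hq c)
    have := hle c
    have : q c < 1 := by nlinarith
    nlinarith
  rw [sum_sub_distrib, hsum, sub_eq_self] at hs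
  simpa [(sum_eq_zero_iff_of_nonpos fun c _ => hq0 c).1 hs c (mem_univ c)] using hq c

theorem sq_sum_eq (hn : 0 < n) (x : Fin n → ℤ) (hinj : ∀ a b, (n : ℤ) ∣ x a - x b → a = b)
    (h : ∀ c, x c ∈ Finset.Icc (-(n : ℤ) + 1) 0) :
    ∑ c, x c ^ 2 = ∑ k ∈ Finset.Icc (-(n : ℤ) + 1) 0, k ^ 2 := by
  obtain ⟨q, hq, -, hs⟩ := exists_standard hn x hinj
  rw [← hs]
  refine sum_congr rfl fun c _ => ?_
  have h1 := Finset.mem_Icc.1 (h c)
  have h2 := Finset.mem_Icc.1 (hq c)
  have : q c < 1 := by nlinarith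
  have : -1 < q c := by nlinarith
  rw [show q c = 0 by omega]
  simp

theorem sq_sum_lt (hn : 0 < n) (x : Fin n → ℤ) (hinj : ∀ a b, (n : ℤ) ∣ x a - x b → a = b)
    (hsum : ∑ c, x c = S0 n) (h : ∃ c, x c ∉ Finset.Icc (-(n : ℤ) + 1) 0) :
    ∑ k ∈ Finset.Icc (-(n : ℤ) + 1) 0, k ^ 2 < ∑ c, x c ^ 2 := by
  obtain ⟨q, hq, hs, hs2⟩ := exists_standard hn x hinj
  rw [sum_sub_distrib, hsum, sub_eq_self] at hs
  rw [← hs2]
  have key : ∀ c, 0 ≤ x c ^ 2 - (x c - n * q c) ^ 2 + ((n : ℤ) - 1) * (n * q c) ∧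
      (q c ≠ 0 → 0 < x c ^ 2 - (x c - n * q c) ^ 2 + ((n : ℤ) - 1) * (n * q c)) := by
    intro c
    obtain ⟨h1, h2⟩ := Finset.mem_Icc.1 (hq c)
    set y := x c - n * q c with hy
    rw [show x c = y + n * q c by omega]
    rw [show (y + n * q c) ^ 2 - y ^ 2 + ((n : ℤ) - 1) * (n * q c) =
      n * (q c * (2 * y + n * q c + (n - 1))) by ring]
    rcases lt_trichotomy (q c) 0 with hq0 | hq0 | hq0
    · have h3 : 2 * y + n * q c + ((n : ℤ) - 1) < 0 := by nlinarith
      have := mul_pos (by omega : (0 : ℤ) < n) (mul_pos_of_neg_of_neg hq0 h3)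
      exact ⟨this.le, fun _ => this⟩
    · simp [hq0]
    · have h3 : 0 < 2 * y + n * q c + ((n : ℤ) - 1) := by nlinarith
      have := mul_pos (by omega : (0 : ℤ) < n) (mul_pos hq0 h3)
      exact ⟨this.le, fun _ => this⟩
  obtain ⟨c₀, hc₀⟩ := h
  have hpos : 0 < ∑ c, (x c ^ 2 - (x c - n * q c) ^ 2 + ((n : ℤ) - 1) * (n * q c)) :=
    sum_pos' (fun c _ => (key c).1) ⟨c₀, mem_univ _, (key c₀).2 fun h0 => hc₀ (by
      simpa [h0] using hq c₀)⟩
  rw [sum_add_distrib, sum_sub_distrib, ← mul_sum, hs, mul_zero, add_zero] at hpos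
  omega

/-- The index of a vertex. -/
noncomputable def jv (W : BVert p n) : ℕ := (idx n W.1).toNat

theorem jv_spec (hn : 0 < n) (W : BVert p n) : idx n W.1 = jv W ∧ jv W < n := by
  obtain ⟨hW, j, hj, hI⟩ := W.2
  have := hI.idx_eq hn hW
  simp [jv, this, hj]

/-- The height of a vertex. -/
noncomputable def hgt (W : BVert p n) : ℕ ×ₗ ℕ ×ₗ ℕ := heightX (xv n W.1) (jv W)

theorem good_iff (hn : 0 < n) (W : BVert p n) :
    Good p n W ↔ ∀ c, xv n W.1 c ∈ Finset.Icc (-(n : ℤ) + 1) 0 := by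
  have hW := W.2.1
  obtain ⟨hj, hjn⟩ := jv_spec hn W
  constructor
  · rintro ⟨j, -, hI, hC⟩
    refine mem_Icc_of_nonpos hn _ (xv_injMod hW) (sum_xv hn hW) fun c => ?_
    obtain ⟨-, ⟨w, hw, hwh, hw0⟩, -⟩ := top_spec hW c
    rw [xv, hI.idx_eq hn hW]
    by_contra hpos
    have : w ∈ (⊥ : Submodule (ZMod p) (LV p)) :=
      hC.disjoint.eq_bot ▸ ⟨hw, hi_mono (by omega) hwh⟩
    rw [Submodule.mem_bot] at this
    exact hw0 (by rw [this]; rfl)
  · intro h
    refine ⟨jv W, hjn, hj ▸ hasIdx_idx hn hW, ?_, ?_⟩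
    · rw [disjoint_iff_inf_le]
      rintro w ⟨hw, hwh⟩
      rw [Submodule.mem_bot]
      by_contra hw0
      obtain ⟨k, hk, hkmin⟩ := w.support.exists_min_image id (Finsupp.support_nonempty_iff.2 hw0)
      have hk0 : w k ≠ 0 := Finsupp.mem_support_iff.1 hk
      have hkj : (jv W : ℤ) < k := by
        by_contra hle
        exact hk0 (mem_hi.1 hwh k (by omega))
      have hL : Ld W.1 k := ⟨w, hw, mem_hi.2 fun l hl => Finsupp.notMem_support_iff.1 fun hls =>
        absurd (hkmin l hls) (by simp; omega), hk0⟩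
      obtain ⟨c, hc⟩ := exists_res hn k
      have h1 := (ld_iff hW hc).1 hL
      have h2 := (Finset.mem_Icc.1 (h c)).2
      simp only [xv, hj] at h2
      omega
    · rw [codisjoint_iff_le_sup]
      rintro w -
      rw [← Finsupp.sum_single w]
      refine Submodule.sum_mem _ fun k _ => ?_
      have key : ∀ N : ℕ, ∀ k : ℤ, (jv W : ℤ) - N < k → ∀ r : ZMod p,
          Finsupp.single k r ∈ W.1 ⊔ hi p (jv W) := by
        intro N
        induction N with
        | zero =>
          intro k hk r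
          exact Submodule.mem_sup_right (mem_hi.2 fun l hl => Finsupp.single_eq_of_ne (by omega))
        | succ N ih =>
          intro k hk r
          by_cases hk' : (jv W : ℤ) - N < k
          · exact ih k hk' r
          obtain ⟨c, hc⟩ := exists_res hn k
          have hL : Ld W.1 k := (ld_iff hW hc).2 (by
            have h2 := Finset.mem_Icc.1 (h c)
            simp only [xv, hj] at h2
            have hd : (n : ℤ) ∣ top n W.1 c - k := by
              rw [Int.dvd_iff_emod_eq_zero, Int.sub_emod, (top_spec hW c).1, hc, sub_self,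
                Int.zero_emod]
            obtain ⟨q, hq⟩ := hd
            have : -1 < q := by nlinarith
            nlinarith)
          obtain ⟨v, hv, hvh, hv0⟩ := hL
          have hrest : v - Finsupp.single k (v k) ∈ W.1 ⊔ hi p (jv W) := by
            rw [← Finsupp.sum_single (v - Finsupp.single k (v k))]
            refine Submodule.sum_mem _ fun l hl => ih l ?_ _
            rw [Finsupp.mem_support_iff] at hl
            by_contra hle
            rcases eq_or_ne l k with rfl | hne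
            · simp at hl
            · rw [Finsupp.sub_apply, Finsupp.single_eq_of_ne hne, sub_zero] at hl
              exact hl (mem_hi.1 hvh l (by omega))
          have : Finsupp.single k (v k) ∈ W.1 ⊔ hi p (jv W) := by
            simpa using sub_mem (Submodule.mem_sup_left hv : v ∈ W.1 ⊔ hi p (jv W)) hrest
          simpa [Finsupp.smul_single, div_mul_cancel₀ _ hv0] using
            Submodule.smul_mem _ (r / v k) this
      exact key ((jv W : ℤ) - k + 1).toNat k (by omega) _

theorem xv_bad (hn : 0 < n) {W : BVert p n} (h : ¬ Good p n W) :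
    ∃ c, xv n W.1 c ∉ Finset.Icc (-(n : ℤ) + 1) 0 := by
  by_contra h'
  push Not at h'
  exact h ((good_iff hn W).2 h')

theorem hgt_lt_of_good (hn : 0 < n) {W L : BVert p n} (hW : Good p n W) (hL : ¬ Good p n L) :
    hgt W < hgt L := by
  have h1 := sq_sum_eq hn _ (xv_injMod W.2.1) ((good_iff hn W).1 hW)
  have h2 := sq_sum_lt hn _ (xv_injMod L.2.1) (sum_xv hn L.2.1) (xv_bad hn hL)
  rw [← h1] at h2
  refine Prod.Lex.toLex_lt_toLex.2 (Or.inl ?_)
  zify
  simpa [max_eq_left (sq_nonneg (_ : ℤ))] using h2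

theorem jv_eq_of_hgt_eq {W L : BVert p n} (h : hgt W = hgt L) : jv W = jv L := by
  have := congrArg (fun t => (ofLex (ofLex t).2).2) h
  simpa [hgt, heightX] using this

end Vale.Agent.P067.Alld.Bld.Descent
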