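import Vale.Agent.P067.Alld.Bld.Stmt

/-!
P067, module II-e: leads of lattices (the least index in a support), the largest lead in each
residue class, and the index.
-/

namespace Vale.Agent.P067.Alld.Bld.Descent

open Finset Module

variable {p : ℕ} [Fact p.Prime] {n : ℕ}

theorem mem_hi {a : ℤ} {w : LV p} : w ∈ hi p a ↔ ∀ k ≤ a, w k = 0 := by
  simp [hi, Finsupp.mem_supported']

theorem mem_lo {a : ℤ} {w : LV p} : w ∈ lo p a ↔ ∀ k, a < k → w k = 0 := by
  simp [lo, Finsupp.mem_supported']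

theorem sh_apply (c : ℤ) (w : LV p) (k : ℤ) : sh p c w k = w (k - c) := by
  conv_lhs => rw [← sub_add_cancel k c]
  exact Finsupp.mapDomain_apply (add_left_injective c) w (k - c)

theorem sh_sh (c d : ℤ) (w : LV p) : sh p c (sh p d w) = sh p (c + d) w := by
  ext k
  simp [sh_apply, sub_sub]

theorem sh_zero (w : LV p) : sh p 0 w = w := by
  ext k
  simp [sh_apply]

theorem map_sh_sh (c d : ℤ) (W : Submodule (ZMod p) (LV p)) :
    (W.map (sh p d)).map (sh p c) = W.map (sh p (c + d)) := by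
  rw [← Submodule.map_comp]
  congr 1
  exact LinearMap.ext fun w => sh_sh c d w

theorem map_sh_zero (W : Submodule (ZMod p) (LV p)) : W.map (sh p 0) = W := by
  rw [show sh p (0 : ℤ) = LinearMap.id from LinearMap.ext fun w => sh_zero w, Submodule.map_id]

theorem map_sh_le_iff {c : ℤ} {W W' : Submodule (ZMod p) (LV p)} :
    W.map (sh p c) ≤ W' ↔ W ≤ W'.map (sh p (-c)) := by
  constructor <;> intro h
  · simpa [map_sh_sh, map_sh_zero] using Submodule.map_mono (f := sh p (-c)) h
  · simpa [map_sh_sh, map_sh_zero] using Submodule.map_mono (f := sh p c) h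

/-- `k` is a lead: some element is supported on `k ≤ ·` and nonzero at `k`. -/
def Ld (W : Submodule (ZMod p) (LV p)) (k : ℤ) : Prop := ∃ w ∈ W, w ∈ hi p (k - 1) ∧ w k ≠ 0

theorem Ld.mono {W W' : Submodule (ZMod p) (LV p)} {k : ℤ} (h : Ld W k) (hle : W ≤ W') :
    Ld W' k := by
  obtain ⟨w, hw, h⟩ := h
  exact ⟨w, hle hw, h⟩

theorem ld_of_le {W : Submodule (ZMod p) (LV p)} {a k : ℤ} (h : lo p a ≤ W) (hk : k ≤ a) :
    Ld W k := by
  refine ⟨Finsupp.single k 1, h (mem_lo.2 fun l hl => ?_), mem_hi.2 fun l hl => ?_, by simp⟩ <;>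
    exact Finsupp.single_eq_of_ne (by omega)

theorem le_of_ld {W : Submodule (ZMod p) (LV p)} {b k : ℤ} (h : W ≤ lo p b) (hk : Ld W k) :
    k ≤ b := by
  obtain ⟨w, hw, -, hne⟩ := hk
  by_contra hb
  exact hne (mem_lo.1 (h hw) k (by omega))

theorem ld_map_sh {W : Submodule (ZMod p) (LV p)} {c k : ℤ} :
    Ld (W.map (sh p c)) k ↔ Ld W (k - c) := by
  constructor
  · rintro ⟨_, ⟨w, hw, rfl⟩, hhi, hne⟩
    refine ⟨w, hw, mem_hi.2 fun l hl => ?_, by rwa [sh_apply] at hne⟩
    have h := mem_hi.1 hhi (l + c) (by omega)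
    rwa [sh_apply, add_sub_cancel_right] at h
  · rintro ⟨w, hw, hhi, hne⟩
    refine ⟨_, Submodule.mem_map_of_mem hw, mem_hi.2 fun l hl => ?_, by rwa [sh_apply]⟩
    rw [sh_apply]
    exact mem_hi.1 hhi _ (by omega)

theorem hi_mono {a a' : ℤ} (h : a ≤ a') : hi p a' ≤ hi p a :=
  fun _ hw => mem_hi.2 fun k hk => mem_hi.1 hw k (by omega)

theorem mem_hi_succ {k : ℤ} {w : LV p} (h : w ∈ hi p (k - 1)) (h0 : w k = 0) : w ∈ hi p k :=
  mem_hi.2 fun l hl => if e : l = k then e ▸ h0 else mem_hi.1 h l (by omega)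

theorem eq_zero_of_mem {b : ℤ} {w : LV p} (h1 : w ∈ lo p b) (h2 : w ∈ hi p b) : w = 0 := by
  ext k
  rcases le_or_gt k b with hk | hk
  exacts [mem_hi.1 h2 k hk, mem_lo.1 h1 k hk]

/-- Between two bounds a submodule is determined by its leads. -/
theorem le_of_ld_subset {W₁ W₂ : Submodule (ZMod p) (LV p)} {a b : ℤ} (ha : lo p a ≤ W₁)
    (hb : W₂ ≤ lo p b) (h12 : W₁ ≤ W₂) (h : ∀ k, Ld W₂ k → Ld W₁ k) : W₂ ≤ W₁ := by
  have key : ∀ N : ℕ, ∀ w ∈ W₂, w ∈ hi p (b - N) → w ∈ W₁ := by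
    intro N
    induction N with
    | zero =>
      intro w hw hh
      rw [eq_zero_of_mem (hb hw) (by simpa using hh)]
      exact zero_mem _
    | succ N ih =>
      intro w hw hh
      have hh' : w ∈ hi p (b - N - 1) := by
        rwa [show b - ((N + 1 : ℕ) : ℤ) = b - N - 1 by omega] at hh
      by_cases h0 : w (b - N) = 0
      · exact ih w hw (mem_hi_succ hh' h0)
      obtain ⟨v, hv, hvh, hv0⟩ := h _ ⟨w, hw, hh', h0⟩
      set r := w (b - N) / v (b - N) with hr
      have h1 : w - r • v ∈ W₁ := by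
        refine ih _ (sub_mem hw (Submodule.smul_mem _ _ (h12 hv)))
          (mem_hi_succ (sub_mem hh' (Submodule.smul_mem _ _ hvh)) ?_)
        simp [hr, div_mul_cancel₀ _ hv0]
      simpa using add_mem h1 (Submodule.smul_mem _ r hv)
  intro w hw
  classical
  have h1 : w.filter (· ≤ a) ∈ W₁ :=
    ha (mem_lo.2 fun k hk => Finsupp.filter_apply_neg _ _ (by omega))
  have h2 : w - w.filter (· ≤ a) ∈ hi p (b - (b - a).toNat) :=
    mem_hi.2 fun k hk => by
      rw [Finsupp.sub_apply, Finsupp.filter_apply_pos (· ≤ a) _ (show k ≤ a by omega), sub_self]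
  simpa using add_mem (key _ _ (sub_mem hw (h12 h1)) h2) h1

variable (n) in
/-- The largest lead in the residue class of `c`. -/
noncomputable def top (W : Submodule (ZMod p) (LV p)) (c : Fin n) : ℤ := by
  classical
  exact if h : ∃ k : ℤ, k % n = c ∧ Ld W k ∧ ∀ l : ℤ, l % n = c → Ld W l → l ≤ k then h.choose
    else 0

theorem top_spec {W : Submodule (ZMod p) (LV p)} (hW : IsLat p n W) (c : Fin n) :
    top n W c % n = c ∧ Ld W (top n W c) ∧
      ∀ l : ℤ, l % n = c → Ld W l → l ≤ top n W c := by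
  obtain ⟨-, a, b, ha, hb⟩ := hW
  have hex : ∃ k : ℤ, k % n = c ∧ Ld W k ∧ ∀ l : ℤ, l % n = c → Ld W l → l ≤ k := by
    have hn : (0 : ℤ) < n := by exact_mod_cast c.pos
    have hc : (c : ℤ) % n = c := Int.emod_eq_of_lt (by omega) (by exact_mod_cast c.2)
    obtain ⟨k, ⟨hk1, hk2⟩, hk3⟩ := Int.exists_greatest_of_bdd
      (P := fun k => k % (n : ℤ) = c ∧ Ld W k) ⟨b, fun k hk => le_of_ld hb hk.2⟩
      ⟨a - (a - c) % n, by
        rw [show a - (a - c) % n = (c : ℤ) + n * ((a - c) / n) by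
          have := Int.emod_add_mul_ediv (a - c) n; omega, Int.add_mul_emod_self_left, hc],
        ld_of_le ha (by have := Int.emod_nonneg (a - c) hn.ne'; omega)⟩
    exact ⟨k, hk1, hk2, fun l h1 h2 => hk3 l ⟨h1, h2⟩⟩
  simp only [top, dif_pos hex]
  exact hex.choose_spec

theorem exists_res (hn : 0 < n) (k : ℤ) : ∃ c : Fin n, k % n = c :=
  ⟨⟨(k % n).toNat, by have := Int.emod_lt_of_pos k (by omega : (0 : ℤ) < n); omega⟩, by
    have := Int.emod_nonneg k (by omega : (n : ℤ) ≠ 0); simp; omega⟩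

theorem _root_.Vale.Agent.P067.Alld.Bld.IsLat.ld_sub_mul {W : Submodule (ZMod p) (LV p)} (hW : IsLat p n W) {k : ℤ}
    (hk : Ld W k) (q : ℕ) : Ld W (k - n * q) := by
  induction q with
  | zero => simpa using hk
  | succ q ih =>
    refine (ld_map_sh.2 ?_).mono hW.1
    rwa [show k - n * ((q + 1 : ℕ) : ℤ) - -(n : ℤ) = k - n * q by push_cast; ring]

theorem ld_iff {W : Submodule (ZMod p) (LV p)} (hW : IsLat p n W) {k : ℤ} {c : Fin n}
    (hc : k % n = c) : Ld W k ↔ k ≤ top n W c := by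
  obtain ⟨h1, h2, h3⟩ := top_spec hW c
  refine ⟨h3 k hc, fun hk => ?_⟩
  obtain ⟨q, hq⟩ : (n : ℤ) ∣ top n W c - k := by
    rw [Int.dvd_iff_emod_eq_zero, Int.sub_emod, h1, hc, sub_self, Int.zero_emod]
  obtain ⟨q, rfl⟩ := Int.eq_ofNat_of_zero_le (show 0 ≤ q by
    have : (0 : ℤ) < n := by exact_mod_cast c.pos
    nlinarith)
  rw [show k = top n W c - n * q by omega]
  exact hW.ld_sub_mul h2 q

theorem top_mono {W W' : Submodule (ZMod p) (LV p)} (hW : IsLat p n W) (hW' : IsLat p n W')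
    (h : W ≤ W') (c : Fin n) : top n W c ≤ top n W' c :=
  (top_spec hW' c).2.2 _ (top_spec hW c).1 ((top_spec hW c).2.1.mono h)

theorem eq_of_top_le {W W' : Submodule (ZMod p) (LV p)} (hn : 0 < n) (hW : IsLat p n W)
    (hW' : IsLat p n W') (h : W ≤ W') (ht : ∀ c, top n W' c ≤ top n W c) : W = W' := by
  obtain ⟨a, -, ha, -⟩ := hW.2
  obtain ⟨-, b, -, hb⟩ := hW'.2
  refine le_antisymm h (le_of_ld_subset ha hb h fun k hk => ?_)
  obtain ⟨c, hc⟩ := exists_res hn k
  exact (ld_iff hW hc).2 (((ld_iff hW' hc).1 hk).trans (ht c))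

theorem lo_le_map_sh {a c : ℤ} : lo p (a + c) ≤ (lo p a).map (sh p c) := by
  intro w hw
  refine ⟨sh p (-c) w, mem_lo.2 fun k hk => ?_, by rw [sh_sh, add_neg_cancel, sh_zero]⟩
  rw [sh_apply]
  exact mem_lo.1 hw _ (by omega)

theorem map_sh_le_lo {b c : ℤ} : (lo p b).map (sh p c) ≤ lo p (b + c) := by
  rintro _ ⟨w, hw, rfl⟩
  refine mem_lo.2 fun k hk => ?_
  rw [sh_apply]
  exact mem_lo.1 hw _ (by omega)

theorem _root_.Vale.Agent.P067.Alld.Bld.IsLat.map_sh {W : Submodule (ZMod p) (LV p)} (hW : IsLat p n W) (c : ℤ) :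
    IsLat p n (W.map (sh p c)) := by
  obtain ⟨h, a, b, ha, hb⟩ := hW
  refine ⟨?_, a + c, b + c, lo_le_map_sh.trans (Submodule.map_mono ha),
    (Submodule.map_mono hb).trans map_sh_le_lo⟩
  rw [map_sh_sh, add_comm, ← map_sh_sh]
  exact Submodule.map_mono h

theorem top_map_sh {W : Submodule (ZMod p) (LV p)} (hW : IsLat p n W) (q : ℤ) (c : Fin n) :
    top n (W.map (sh p (n * q))) c = top n W c + n * q := by
  have hW' := hW.map_sh (n * q)
  obtain ⟨h1, h2, h3⟩ := top_spec hW c
  obtain ⟨g1, g2, g3⟩ := top_spec hW' c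
  have e1 : (top n W c + n * q) % (n : ℤ) = c := by rw [Int.add_mul_emod_self_left, h1]
  have e2 : (top n (W.map (sh p (n * q))) c - n * q) % (n : ℤ) = c := by
    rw [Int.sub_mul_emod_self_left, g1]
  have := g3 _ e1 (ld_map_sh.2 (by rwa [add_sub_cancel_right]))
  have := h3 _ e2 (ld_map_sh.1 g2)
  omega

theorem map_sh_le_self {W : Submodule (ZMod p) (LV p)} (hW : IsLat p n W) :
    W ≤ W.map (sh p n) := by
  simpa using map_sh_le_iff.1 hW.1

section Count

theorem finiteDimensional_between {W : Submodule (ZMod p) (LV p)} {b : ℤ} (hb : W ≤ lo p b)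
    (a : ℤ) : FiniteDimensional (ZMod p) (W ⊓ hi p a : Submodule (ZMod p) (LV p)) := by
  have : Module.Finite (ZMod p) (Finsupp.supported (ZMod p) (ZMod p) (Set.Ioc a b)) :=
    Module.Finite.equiv (Finsupp.supportedEquivFinsupp (Set.Ioc a b)).symm
  refine Submodule.finiteDimensional_of_le
    (S₂ := Finsupp.supported (ZMod p) (ZMod p) (Set.Ioc a b)) fun w hw => ?_
  refine (Finsupp.mem_supported' _ _).2 fun k hk => ?_
  rcases le_or_gt k a with h | h
  exacts [mem_hi.1 hw.2 k h, mem_lo.1 (hb hw.1) k (not_le.1 fun h' => hk ⟨h, h'⟩)]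

open Classical in
/-- The dimension of the part above `a` counts the leads above `a`. -/
theorem finrank_inf_hi {W : Submodule (ZMod p) (LV p)} {b : ℤ} (hb : W ≤ lo p b) (N : ℕ) :
    finrank (ZMod p) (W ⊓ hi p (b - N) : Submodule (ZMod p) (LV p)) =
      ((Ioc (b - N) b).filter (Ld W)).card := by
  induction N with
  | zero =>
    have : W ⊓ hi p (b - (0 : ℕ)) = ⊥ :=
      le_bot_iff.1 fun w hw => by simpa using eq_zero_of_mem (hb hw.1) (by simpa using hw.2)
    rw [this, finrank_bot]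
    simp
  | succ N ih =>
    set k := b - N with hk
    rw [show b - ((N + 1 : ℕ) : ℤ) = k - 1 by omega]
    have := finiteDimensional_between hb (k - 1)
    let φ : (W ⊓ hi p (k - 1) : Submodule (ZMod p) (LV p)) →ₗ[ZMod p] ZMod p :=
      (Finsupp.lapply k).comp (Submodule.subtype _)
    have hker : finrank (ZMod p) (LinearMap.ker φ) =
        finrank (ZMod p) (W ⊓ hi p k : Submodule (ZMod p) (LV p)) := by
      rw [← Submodule.finrank_map_subtype_eq (W ⊓ hi p (k - 1)) (LinearMap.ker φ)]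
      have : (LinearMap.ker φ).map (W ⊓ hi p (k - 1)).subtype = W ⊓ hi p k := by
        ext w
        constructor
        · rintro ⟨⟨v, hv⟩, h0, rfl⟩
          exact ⟨hv.1, mem_hi_succ hv.2 h0⟩
        · rintro ⟨h1, h2⟩
          exact ⟨⟨w, h1, hi_mono (by omega) h2⟩, mem_hi.1 h2 k le_rfl, rfl⟩
      rw [this]
    have hrn := LinearMap.finrank_range_add_finrank_ker φ
    have hins : Ioc (k - 1) b = insert k (Ioc k b) := by
      ext l; simp only [mem_Ioc, mem_insert]; omega
    rw [hins, filter_insert]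
    by_cases hL : Ld W k
    · obtain ⟨w, hw, hwh, hw0⟩ := id hL
      have : LinearMap.range φ = ⊤ := by
        refine LinearMap.range_eq_top.2 fun r => ⟨(r / w k) • ⟨w, hw, hwh⟩, ?_⟩
        simp [φ, div_mul_cancel₀ _ hw0]
      rw [this, finrank_top, finrank_self, hker, ih] at hrn
      rw [if_pos hL, card_insert_of_notMem (by simp)]
      omega
    · have : LinearMap.range φ = ⊥ := by
        refine LinearMap.range_eq_bot.2 (LinearMap.ext fun v => ?_)
        by_contra h
        exact hL ⟨v.1, v.2.1, v.2.2, h⟩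
      rw [this, finrank_bot, hker, ih] at hrn
      rw [if_neg hL]
      omega

/-- The sum of the numbers of `Icc (1 - n) 0`. -/
noncomputable def S0 (n : ℕ) : ℤ := ∑ k ∈ Finset.Icc (-(n : ℤ) + 1) 0, k

theorem sum_Ioc_eq (a : ℤ) (n : ℕ) : ∑ k ∈ Ioc (a - n) a, k = S0 n + n * a := by
  have h : (Ioc (a - (n : ℤ)) a) = (Finset.Icc (-(n : ℤ) + 1) 0).map (addRightEmbedding a) := by
    rw [map_add_right_Icc]
    ext; simp only [mem_Ioc, mem_Icc]; omega
  rw [h, sum_map]
  simp only [addRightEmbedding_apply, sum_add_distrib, sum_const, nsmul_eq_mul, S0]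
  rw [Int.card_Icc]
  congr 2
  omega

theorem sum_top {W : Submodule (ZMod p) (LV p)} (hn : 0 < n) (hW : IsLat p n W) {a : ℤ}
    (ha : lo p a ≤ W) :
    ∑ c, top n W c = S0 n +
      n * (a + finrank (ZMod p) (W ⊓ hi p a : Submodule (ZMod p) (LV p))) := by
  classical
  obtain ⟨-, b, -, hb⟩ := hW.2
  have hab : a ≤ b := le_of_ld hb (ld_of_le ha le_rfl)
  set e : Fin n → ℤ := fun c => a - (a - c) % n with he
  have hn' : (0 : ℤ) < n := by omega
  have he1 : ∀ c, e c % n = c := fun c => by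
    have : e c = (c : ℤ) + n * ((a - c) / n) := by
      have := Int.emod_add_mul_ediv (a - c) n
      simp only [e]; omega
    rw [this, Int.add_mul_emod_self_left, Int.emod_eq_of_lt (by omega) (by exact_mod_cast c.2)]
  have he2 : ∀ c, a - n < e c ∧ e c ≤ a := fun c => by
    have := Int.emod_nonneg (a - c) hn'.ne'
    have := Int.emod_lt_of_pos (a - c) hn'
    simp only [e]; omega
  have heinj : Function.Injective e := fun c c' h => by
    have := he1 c; rw [h, he1 c'] at this; exact Fin.ext (by omega)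
  have hesum : ∑ c, e c = S0 n + n * a := by
    rw [← sum_Ioc_eq, ← sum_image (f := fun k : ℤ => k) fun c _ c' _ h => heinj h]
    refine sum_congr (eq_of_subset_of_card_le (fun k hk => ?_) ?_) fun _ _ => rfl
    · obtain ⟨c, -, rfl⟩ := mem_image.1 hk
      exact mem_Ioc.2 (he2 c)
    · rw [card_image_of_injective _ heinj, Int.card_Ioc, card_univ, Fintype.card_fin]; omega
  have hq : ∀ c, ∃ q : ℕ, top n W c = e c + n * q := fun c => by
    obtain ⟨h1, -, h3⟩ := top_spec hW c
    obtain ⟨q, hq⟩ : (n : ℤ) ∣ top n W c - e c := by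
      rw [Int.dvd_iff_emod_eq_zero, Int.sub_emod, h1, he1, sub_self, Int.zero_emod]
    have := h3 _ (he1 c) (ld_of_le ha (he2 c).2)
    obtain ⟨q, rfl⟩ := Int.eq_ofNat_of_zero_le (show 0 ≤ q by nlinarith)
    exact ⟨q, by omega⟩
  choose q hq using hq
  have hcount : ((Ioc a b).filter (Ld W)).card = ∑ c, q c := by
    have : ∀ c : Fin n,
        ((Ioc a b).filter fun k => Ld W k ∧ k % (n : ℤ) = (c : ℕ)).card = q c := by
      intro c
      rw [show q c = (Finset.range (q c)).card from (card_range _).symm]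
      refine (card_bij (s := Finset.range (q c)) (t := (Ioc a b).filter fun k => Ld W k ∧ k % (n : ℤ) = (c : ℕ)) (fun (i : ℕ) _ => e c + n * ((i : ℤ) + 1)) (fun i hi => ?_)
        (fun i _ i' _ h => ?_) fun k hk => ?_).symm
      · have hi' : i + 1 ≤ q c := mem_range.1 hi
        have hmod : (e c + n * ((i : ℤ) + 1)) % n = c := by
          rw [Int.add_mul_emod_self_left, he1]
        have hL : Ld W (e c + n * ((i : ℤ) + 1)) :=
          (ld_iff hW hmod).2 (by rw [hq c]; gcongr; omega)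
        exact mem_filter.2 ⟨mem_Ioc.2 ⟨by nlinarith [(he2 c).1], le_of_ld hb hL⟩, hL, hmod⟩
      · have := mul_left_cancel₀ hn'.ne' (add_left_cancel h)
        omega
      · obtain ⟨hk1, hkL, hkc⟩ := mem_filter.1 hk
        obtain ⟨r, hr⟩ : (n : ℤ) ∣ k - e c := by
          rw [Int.dvd_iff_emod_eq_zero, Int.sub_emod, hkc, he1, sub_self, Int.zero_emod]
        have h2 := (ld_iff hW hkc).1 hkL
        rw [hq c] at h2
        have := (mem_Ioc.1 hk1).1
        have := (he2 c).2
        have hr1 : 1 ≤ r := by nlinarith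
        have hr2 : r ≤ q c := by nlinarith
        exact ⟨(r - 1).toNat, mem_range.2 (by omega), by
          rw [show (((r - 1).toNat : ℕ) : ℤ) + 1 = r by omega]; omega⟩
    rw [sum_congr rfl fun c _ => (this c).symm, ← card_biUnion]
    · congr 1
      ext k
      simp only [mem_biUnion, mem_univ, true_and, mem_filter]
      exact ⟨fun h => (exists_res hn k).imp fun c hc => ⟨h.1, h.2, hc⟩,
        fun ⟨c, h1, h2, _⟩ => ⟨h1, h2⟩⟩
    · intro c _ c' _ hne
      refine disjoint_left.2 fun k h h' => hne ?_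
      have := (mem_filter.1 h).2.2
      rw [(mem_filter.1 h').2.2] at this
      exact Fin.ext (by omega)
  have hfr := finrank_inf_hi hb (b - a).toNat
  rw [show b - ((b - a).toNat : ℤ) = a by omega] at hfr
  rw [hfr, hcount]
  simp only [hq, sum_add_distrib, hesum, Nat.cast_sum, mul_add, mul_sum]
  ring

variable (n) in
/-- The index of a lattice. -/
noncomputable def idx (W : Submodule (ZMod p) (LV p)) : ℤ := (∑ c, top n W c - S0 n) / n

variable (n) in
/-- The normalised tuple of the largest leads. -/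
noncomputable def xv (W : Submodule (ZMod p) (LV p)) (c : Fin n) : ℤ := top n W c - idx n W

theorem sum_top_idx {W : Submodule (ZMod p) (LV p)} (hn : 0 < n) (hW : IsLat p n W) :
    ∑ c, top n W c = S0 n + n * idx n W := by
  obtain ⟨a, -, ha, -⟩ := hW.2
  rw [idx, sum_top hn hW ha, add_sub_cancel_left, Int.mul_ediv_cancel_left _ (by omega)]

theorem _root_.Vale.Agent.P067.Alld.Bld.HasIdx.idx_eq {W : Submodule (ZMod p) (LV p)} {j : ℤ} (h : HasIdx p W j) (hn : 0 < n)
    (hW : IsLat p n W) : idx n W = j := by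
  obtain ⟨a, ha, hj⟩ := h
  rw [idx, sum_top hn hW ha, add_sub_cancel_left, Int.mul_ediv_cancel_left _ (by omega)]
  omega

theorem hasIdx_idx {W : Submodule (ZMod p) (LV p)} (hn : 0 < n) (hW : IsLat p n W) :
    HasIdx p W (idx n W) := by
  obtain ⟨a, -, ha, -⟩ := hW.2
  refine ⟨a, ha, ?_⟩
  rw [HasIdx.idx_eq (j := a + finrank (ZMod p) (W ⊓ hi p a : Submodule (ZMod p) (LV p)))
    ⟨a, ha, by ring⟩ hn hW]
  ring

theorem sum_xv {W : Submodule (ZMod p) (LV p)} (hn : 0 < n) (hW : IsLat p n W) :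
    ∑ c, xv n W c = S0 n := by
  simp [xv, sum_sub_distrib, sum_top_idx hn hW]

theorem xv_injMod {W : Submodule (ZMod p) (LV p)} (hW : IsLat p n W) (a b : Fin n)
    (h : (n : ℤ) ∣ xv n W a - xv n W b) : a = b := by
  rw [show xv n W a - xv n W b = top n W a - top n W b by simp [xv]] at h
  have h' := Int.emod_eq_emod_iff_emod_sub_eq_zero.2 (Int.emod_eq_zero_of_dvd h)
  rw [(top_spec hW a).1, (top_spec hW b).1] at h'
  exact Fin.ext (by omega)

theorem idx_mono {W W' : Submodule (ZMod p) (LV p)} (hn : 0 < n) (hW : IsLat p n W)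
    (hW' : IsLat p n W') (h : W ≤ W') : idx n W ≤ idx n W' := by
  have := sum_le_sum fun c (_ : c ∈ (univ : Finset (Fin n))) => top_mono hW hW' h c
  rw [sum_top_idx hn hW, sum_top_idx hn hW'] at this
  have : (n : ℤ) * idx n W ≤ n * idx n W' := by omega
  exact le_of_mul_le_mul_left this (by omega)

theorem idx_map_sh {W : Submodule (ZMod p) (LV p)} (hn : 0 < n) (hW : IsLat p n W) (q : ℤ) :
    idx n (W.map (sh p (n * q))) = idx n W + n * q := by
  have h := sum_top_idx hn (hW.map_sh (n * q))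
  simp only [top_map_sh hW, sum_add_distrib, sum_top_idx hn hW, sum_const, card_univ,
    Fintype.card_fin, nsmul_eq_mul] at h
  exact mul_left_cancel₀ (by omega : (n : ℤ) ≠ 0) (by linarith)

theorem xv_map_sh {W : Submodule (ZMod p) (LV p)} (hn : 0 < n) (hW : IsLat p n W) (q : ℤ)
    (c : Fin n) : xv n (W.map (sh p (n * q))) c = xv n W c := by
  simp [xv, idx_map_sh hn hW, top_map_sh hW]

end Count

end Vale.Agent.P067.Alld.Bld.Descent
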