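import Vale.Agent.P067.Alld.Stmt
import Vale.Agent.P067.Sparse.Homotopy
import Vale.Agent.P067.Alld.Descent.Coord

/-!
P067, module II-e: descent from the building to the good lattices; the coset complex of `Γ` is
acyclic through the range.
-/

namespace Vale.Agent.P067.Alld.Bld.Descent

open Finset Module Sparse

section Chains

variable {X Y : Type} [DecidableEq X] [DecidableEq Y]

theorem bd_push_on {f : X → Y} {z : Ch X} (hf : On (fun σ => Set.InjOn f σ) z) :
    bd (push f z) = push f (bd z) := by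
  refine eq_of_on (L := bd ∘ₗ push f) (L' := push f ∘ₗ bd) (fun σ hσ => ?_) hf
  simp only [LinearMap.comp_apply, push_single, bd_single, map_sum]
  rw [sum_image hσ]
  refine sum_congr rfl fun x hx => ?_
  congr 1
  ext y
  simp only [mem_erase, mem_image]
  constructor
  · rintro ⟨hy, w, hw, rfl⟩
    exact ⟨w, ⟨fun e => hy (e ▸ rfl), hw⟩, rfl⟩
  · rintro ⟨w, ⟨hne, hw⟩, rfl⟩
    exact ⟨fun e => hne (hσ hw hx e), w, hw, rfl⟩

theorem push_push_on {f : Y → X} {g : X → Y} {z : Ch X}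
    (h : On (fun σ => ∀ v ∈ σ, f (g v) = v) z) : push f (push g z) = z := by
  refine eq_of_on (L := push f ∘ₗ push g) (L' := LinearMap.id) (fun σ hσ => ?_) h
  simp only [LinearMap.comp_apply, push_single, LinearMap.id_apply, image_image]
  rw [image_congr (f := f ∘ g) (g := id) fun v hv => hσ v hv, image_id]

theorem on_push {P : Finset X → Prop} {Q : Finset Y → Prop} {f : X → Y} {z : Ch X}
    (hz : On P z) (h : ∀ σ, P σ → Q (σ.image f)) : On Q (push f z) := by
  intro σ hσ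
  obtain ⟨τ, hτ, rfl⟩ := mem_support_push hσ
  exact h τ (hz τ hτ)

theorem on_drop (v : X) (y : Ch X) :
    On (fun σ => v ∉ σ ∧ σ ∈ y.support) (y + cone v (lk v y)) := by
  have h : y + cone v (lk v y) = Finsupp.linearCombination (ZMod 2)
      (fun σ => if v ∈ σ then (0 : Ch X) else Finsupp.single σ 1) y := by
    suffices h : LinearMap.id + cone v ∘ₗ lk v = Finsupp.linearCombination (ZMod 2)
        (fun σ => if v ∈ σ then (0 : Ch X) else Finsupp.single σ 1) from LinearMap.congr_fun h y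
    refine Finsupp.lhom_ext' fun σ => LinearMap.ext_ring ?_
    simp only [LinearMap.comp_apply, LinearMap.add_apply, Finsupp.lsingle_apply,
      LinearMap.id_apply, lk_single, Finsupp.linearCombination_single, one_smul]
    by_cases hv : v ∈ σ
    · rw [if_pos hv, if_pos hv, cone_single, if_neg (notMem_erase v σ), insert_erase hv]
      exact add_self_eq_zero' _
    · rw [if_neg hv, if_neg hv, map_zero, add_zero]
  rw [h]
  intro σ hσ
  obtain ⟨τ, hτ, hσ⟩ := support_linearCombination _ _ hσ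
  by_cases hv : v ∈ τ
  · simp [hv] at hσ
  · rw [if_neg hv] at hσ
    rw [mem_singleton.1 (Finsupp.support_single_subset hσ)]
    exact ⟨hv, hτ⟩

end Chains

variable {p : ℕ} [Fact p.Prime] {n : ℕ}

/-- A simplex in the link of `L` with all vertices lower than `L`. -/
def LowSimp (L : BVert p n) (σ : Finset (BVert p n)) : Prop :=
  BSimp σ ∧ ∀ W ∈ σ, Rel L W ∧ W ≠ L ∧ hgt W < hgt L

variable (L : BVert p n)

theorem subOf_self : subOf L L.1 = ⊥ :=
  (Submodule.eq_bot_iff _).2 fun _ hu => eq_zero_of_coord_mem L hu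

theorem subOf_top : subOf L (L.1.map (sh p n)) = ⊤ :=
  top_le_iff.1 fun u _ => coord_mem L u

theorem resOf_ssubset {R S : Finset ℕ} (hS : S ⊆ range n) (h : R ⊂ S) :
    resOf L R ⊂ resOf L S := by
  obtain ⟨a, haS, haR⟩ := exists_of_ssubset h
  refine (ssubset_iff_of_subset fun c hc => ?_).2
    ⟨ord L ⟨a, mem_range.1 (hS haS)⟩, ?_, ?_⟩
  · simp only [resOf, mem_filter, mem_univ, true_and] at hc ⊢
    exact h.1 hc
  · simpa [resOf] using haS
  · simpa [resOf] using haR

theorem isGreedy_drop (hG : GreedyStmt) (hn : 0 < n) (hL : ¬ Good p n L) :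
    IsGreedy n fun R => Drop (xv n L.1) (jv L) (resOf L R) := by
  intro R R₀ S hR₀ hR hR₀' h1 h2 hlt
  have htop : resOf L (range n) = univ := by ext; simp [resOf]
  have hbot : resOf L ∅ = ∅ := by ext; simp [resOf]
  refine hG n (jv L) _ (jv_spec hn L).2 (xv_injMod L.2.1) (sum_xv hn L.2.1) (xv_bad hn hL)
    (resOf L R) (resOf L R₀) (resOf L S) ?_ ?_ (resOf_ssubset L (h2.1.trans hR₀) h1)
    (resOf_ssubset L hR₀ h2) fun a ha b hb => ?_
  · rcases hR with h | rfl | rfl
    exacts [Or.inl h, Or.inr (Or.inl hbot), Or.inr (Or.inr htop)]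
  · rcases hR₀' with h | rfl | rfl
    exacts [Or.inl h, Or.inr (Or.inl hbot), Or.inr (Or.inr htop)]
  · simp only [resOf, mem_sdiff, mem_filter, mem_univ, true_and] at ha hb
    have := ord_strictAnti L (hlt _ (mem_sdiff.2 ha) _ (mem_sdiff.2 hb) :
      ((ord L).symm b : ℕ) < ((ord L).symm a : ℕ))
    simp only [Equiv.apply_symm_apply] at this
    simp only [xv]
    omega

theorem exists_lower (hn : 0 < n) [DecidableEq (BVert p n)] {i : ℕ}
    (hF : ∀ (_ : DecidableEq (Submodule (ZMod p) (Fin n → ZMod p))),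
      ∀ z : Ch (Submodule (ZMod p) (Fin n → ZMod p)),
      On (fun σ => ASimp (flag p n) n (fun R => Drop (xv n L.1) (jv L) (resOf L R)) σ ∧
        σ.card = i) z → bd z = 0 →
      ∃ y : Ch (Submodule (ZMod p) (Fin n → ZMod p)),
        On (fun σ => ASimp (flag p n) n (fun R => Drop (xv n L.1) (jv L) (resOf L R)) σ ∧
          σ.card = i + 1) y ∧ bd y = z)
    {ζ : Ch (BVert p n)} (hζ : On (fun σ => LowSimp L σ ∧ σ.card = i) ζ) (hcyc : bd ζ = 0) :
    ∃ η : Ch (BVert p n), On (fun σ => LowSimp L σ ∧ σ.card = i + 1) η ∧ bd η = ζ := by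
  classical
  let g : BVert p n → Submodule (ZMod p) (Fin n → ZMod p) := fun V => subOf L (up L V)
  let T : Submodule (ZMod p) (Fin n → ZMod p) → BVert p n := fun P => toV L (latOf L P)
  have hTg : ∀ V, Rel L V → V ≠ L → T (g V) = V := fun V h1 h2 => by
    simp only [T, g]
    rw [latOf_subOf L (up_between h1), toV_up hn h1 h2]
  have hinj : ∀ σ, LowSimp L σ → Set.InjOn g σ := fun σ hσ a ha b hb e => by
    rw [← hTg a (hσ.2 a ha).1 (hσ.2 a ha).2.1, e, hTg b (hσ.2 b hb).1 (hσ.2 b hb).2.1]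
  have hg : On (fun σ => ASimp (flag p n) n (fun R => Drop (xv n L.1) (jv L) (resOf L R)) σ ∧
      σ.card = i) (push g ζ) := by
    refine on_push hζ fun σ hσ => ⟨⟨?_, ?_⟩, by rw [card_image_of_injOn (hinj σ hσ.1), hσ.2]⟩
    · intro P hP
      obtain ⟨V, hV, rfl⟩ := mem_image.1 hP
      obtain ⟨h1, h2, h3⟩ := hσ.1.2 V hV
      have hb := up_below hn h1 h2
      refine ⟨by rw [flag_top]; exact le_top, fun e => (up_ne hn h2).1 ?_,
        fun e => (up_ne hn h2).2 ?_, ?_⟩
      · rw [← latOf_subOf L hb.1, show subOf L (up L V) = ⊥ from e, latOf, Submodule.map_bot,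
          sup_bot_eq]
      · rw [flag_top] at e
        refine le_antisymm hb.1.2 ?_
        rw [← latOf_subOf L hb.1, show subOf L (up L V) = ⊤ from e, latOf, Submodule.map_top]
        exact map_sh_le_sup L
      · show heightX _ _ < heightX _ _
        rw [show resOf L (leads (flag p n) n (g V)) = resSet L (up L V) from
          (resSet_eq L hb.1).symm, ← hgt_toV hn hb, toV_up hn h1 h2]
        exact h3
    · intro P hP Q hQ
      obtain ⟨V, hV, rfl⟩ := mem_image.1 hP
      obtain ⟨V', hV', rfl⟩ := mem_image.1 hQ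
      exact (up_comparable (hσ.1.1 V hV V' hV')).imp Submodule.comap_mono Submodule.comap_mono
  obtain ⟨y, hy, hybd⟩ := hF inferInstance (push g ζ) hg (by
    rw [bd_push_on (hζ.mono fun σ h => hinj σ h.1), hcyc, map_zero])
  have hP : ∀ σ : Finset (Submodule (ZMod p) (Fin n → ZMod p)),
      ASimp (flag p n) n (fun R => Drop (xv n L.1) (jv L) (resOf L R)) σ → ∀ P ∈ σ,
      Below L (latOf L P) ∧ up L (T P) = latOf L P ∧
        Rel L (T P) ∧ T P ≠ L ∧ hgt (T P) < hgt L := by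
    intro σ hσ P hPσ
    obtain ⟨-, hP0, hPn, hA⟩ := hσ.1 P hPσ
    have hb : Below L (latOf L P) := ⟨between_latOf L P, fun e => hPn (by
      rw [flag_top, ← subOf_latOf L P, e, subOf_top])⟩
    have hup := up_toV hn hb
    refine ⟨hb, hup, rel_L_toV hn hb, fun e => hP0 ?_, ?_⟩
    · rw [show up L (toV L (latOf L P)) = up L L from congrArg (up L) e] at hup
      rw [← subOf_latOf L P, ← hup, show up L L = L.1 from if_pos (below_self hn L).1, subOf_self]
    · show hgt (toV L (latOf L P)) < _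
      rw [hgt_toV hn hb, resSet_eq L hb.1, subOf_latOf]
      exact hA
  have hTinj : ∀ σ, ASimp (flag p n) n (fun R => Drop (xv n L.1) (jv L) (resOf L R)) σ →
      Set.InjOn T σ := fun σ hσ a ha b hb e => by
    rw [← subOf_latOf L a, ← (hP σ hσ a ha).2.1, e, (hP σ hσ b hb).2.1, subOf_latOf]
  refine ⟨push T y, on_push hy fun σ hσ => ⟨⟨?_, ?_⟩, ?_⟩, ?_⟩
  · intro W hW W' hW'
    obtain ⟨P, hPσ, rfl⟩ := mem_image.1 hW
    obtain ⟨Q, hQσ, rfl⟩ := mem_image.1 hW'
    have hb := (hP σ hσ.1 P hPσ).1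
    have hb' := (hP σ hσ.1 Q hQσ).1
    rcases hσ.1.2 P hPσ Q hQσ with h | h
    · exact rel_toV hn hb hb' (sup_le_sup_left (Submodule.map_mono h) _)
    · exact (rel_toV hn hb' hb (sup_le_sup_left (Submodule.map_mono h) _)).symm
  · intro W hW
    obtain ⟨P, hPσ, rfl⟩ := mem_image.1 hW
    exact (hP σ hσ.1 P hPσ).2.2
  · rw [card_image_of_injOn (hTinj σ hσ.1), hσ.2]
  · rw [bd_push_on (hy.mono fun σ h => hTinj σ h.1), hybd,
      push_push_on (hζ.mono fun σ h v hv => hTg v (h.1.2 v hv).1 (h.1.2 v hv).2.1)]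

omit L in
theorem descend (hn : 0 < n) [DecidableEq (BVert p n)] {i : ℕ} {z : Ch (BVert p n)}
    (hz : On (fun σ => GSimp σ ∧ σ.card = i) z)
    (hlow : ∀ L : BVert p n, ¬ Good p n L → ∀ ζ : Ch (BVert p n),
      On (fun σ => LowSimp L σ ∧ σ.card = i) ζ → bd ζ = 0 →
        ∃ η : Ch (BVert p n), On (fun σ => LowSimp L σ ∧ σ.card = i + 1) η ∧ bd η = ζ)
    (h : ℕ ×ₗ ℕ ×ₗ ℕ) : ∀ y : Ch (BVert p n), On (fun σ => BSimp σ ∧ σ.card = i + 1) y →
      bd y = z → (∀ σ ∈ y.support, ∀ W ∈ σ, ¬ Good p n W → hgt W ≤ h) →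
      ∃ y' : Ch (BVert p n), On (fun σ => GSimp σ ∧ σ.card = i + 1) y' ∧ bd y' = z := by
  classical
  induction h using WellFoundedLT.induction with
  | ind h ih =>
    let B : Ch (BVert p n) → Finset (BVert p n) := fun y =>
      (y.support.biUnion id).filter fun W => ¬ Good p n W ∧ hgt W = h
    intro y
    induction hm : (B y).card using Nat.strong_induction_on generalizing y with
    | _ m ihm =>
      intro hy hbd hle
      rcases (B y).eq_empty_or_nonempty with he | ⟨L, hL⟩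
      · by_cases hall : ∀ σ ∈ y.support, ∀ W ∈ σ, Good p n W
        · exact ⟨y, fun σ hσ => ⟨⟨(hy σ hσ).1, hall σ hσ⟩, (hy σ hσ).2⟩, hbd⟩
        push Not at hall
        obtain ⟨σ₀, hσ₀, W₀, hW₀, hbad₀⟩ := hall
        obtain ⟨W, hW, hmax⟩ := ((y.support.biUnion id).filter fun W => ¬ Good p n W
          ).exists_max_image hgt ⟨W₀, mem_filter.2 ⟨mem_biUnion.2 ⟨σ₀, hσ₀, hW₀⟩, hbad₀⟩⟩
        obtain ⟨hW1, hW2⟩ := mem_filter.1 hW
        obtain ⟨σ, hσ, hWσ⟩ := mem_biUnion.1 hW1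
        refine ih (hgt W) (lt_of_le_of_ne (hle σ hσ W hWσ hW2) fun e => ?_) y hy hbd
          fun τ hτ V hV hb => hmax V (mem_filter.2 ⟨mem_biUnion.2 ⟨τ, hτ, hV⟩, hb⟩)
        have : W ∈ B y := mem_filter.2 ⟨hW1, hW2, e⟩
        rw [he] at this
        exact notMem_empty _ this
      obtain ⟨hLy, hbad, hLh⟩ := mem_filter.1 hL
      have hcyc : bd (lk L y) = 0 := by
        rw [bd_lk, hbd]
        refine Finsupp.support_eq_empty.1 (eq_empty_of_forall_notMem fun σ hσ => ?_)
        obtain ⟨τ, hτ, hLτ, -⟩ := mem_support_lk hσ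
        exact hbad ((hz τ hτ).1.2 L hLτ)
      have hon : On (fun σ => LowSimp L σ ∧ σ.card = i) (lk L y) := by
        intro σ hσ
        obtain ⟨τ, hτ, hLτ, rfl⟩ := mem_support_lk hσ
        obtain ⟨hτs, hτc⟩ := hy τ hτ
        refine ⟨⟨fun a ha b hb => hτs a (mem_erase.1 ha).2 b (mem_erase.1 hb).2, fun W hW => ?_⟩,
          by rw [card_erase_of_mem hLτ, hτc]; rfl⟩
        obtain ⟨hne, hWτ⟩ := mem_erase.1 hW
        have hrel := hτs L hLτ W hWτ
        refine ⟨hrel, hne, ?_⟩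
        by_cases hg : Good p n W
        · exact hgt_lt_of_good hn hg hbad
        refine lt_of_le_of_ne (hLh ▸ hle τ hτ W hWτ hg) fun e => hne (Subtype.ext ?_)
        have hj := jv_eq_of_hgt_eq e
        have h1 := (jv_spec hn W).1
        have h2 := (jv_spec hn L).1
        have hidx : idx n W.1 = idx n L.1 := by rw [h1, h2, hj]
        have key : ∀ A B : BVert p n, idx n A.1 = idx n B.1 → A.1 ≤ B.1 → A.1 = B.1 := by
          intro A B hAB hle
          refine eq_of_top_le hn A.2.1 B.2.1 hle fun c => ?_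
          have hs := sum_top_idx hn A.2.1
          rw [hAB, ← sum_top_idx hn B.2.1] at hs
          exact ((sum_eq_sum_iff_of_le fun c _ => top_mono A.2.1 B.2.1 hle c).1 hs c
            (mem_univ c)).ge
        rcases hrel with hr | hr
        · exact (key L W hidx.symm hr.1).symm
        · exact key W L hidx hr.1
      obtain ⟨η, hη, hηbd⟩ := hlow L hbad (lk L y) hon hcyc
      have hc : bd (cone L η) = η + cone L (lk L y) := by
        have h1 := bd_cone L η
        rw [hηbd] at h1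
        conv_rhs => rw [← h1, add_assoc, add_self_eq_zero', add_zero]
      set y' := y + bd (cone L η) with hy'
      have hsplit : y' = (y + cone L (lk L y)) + η := by rw [hy', hc]; abel
      have hv : ∀ σ ∈ y'.support, (L ∉ σ ∧ σ ∈ y.support) ∨ (LowSimp L σ ∧ σ.card = i + 1) := by
        rw [hsplit]
        intro σ hσ
        rcases mem_union.1 (Finsupp.support_add hσ) with h' | h'
        exacts [Or.inl (on_drop L y σ h'), Or.inr (hη σ h')]
      have hy'on : On (fun σ => BSimp σ ∧ σ.card = i + 1) y' := fun σ hσ =>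
        (hv σ hσ).elim (fun h' => hy σ h'.2) fun h' => ⟨h'.1.1, h'.2⟩
      have hy'le : ∀ σ ∈ y'.support, ∀ W ∈ σ, ¬ Good p n W → hgt W ≤ h := fun σ hσ W hW hb =>
        (hv σ hσ).elim (fun h' => hle σ h'.2 W hW hb) fun h' => hLh ▸ (h'.1.2 W hW).2.2.le
      refine ihm (B y').card (hm ▸ card_lt_card ?_) y' rfl hy'on
        (by rw [hy', map_add, bd_bd, add_zero, hbd]) hy'le
      refine (ssubset_iff_of_subset fun W hW => ?_).2 ⟨L, hL, fun hL' => ?_⟩
      · obtain ⟨hW1, hW2, hW3⟩ := mem_filter.1 hW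
        obtain ⟨σ, hσ, hWσ⟩ := mem_biUnion.1 hW1
        rcases hv σ hσ with h' | h'
        · exact mem_filter.2 ⟨mem_biUnion.2 ⟨σ, h'.2, hWσ⟩, hW2, hW3⟩
        · exact absurd (hW3.trans hLh.symm) (h'.1.2 W hWσ).2.2.ne
      · obtain ⟨σ, hσ, hLσ⟩ := mem_biUnion.1 (mem_filter.1 hL').1
        rcases hv σ hσ with h' | h'
        · exact h'.1 hLσ
        · exact (h'.1.2 L hLσ).2.1 rfl

/-- Module II-e. -/
theorem deltaAcyclic (hM : ModelStmt) (hB : BuildingStmt) (hG : GreedyStmt) (hF : FillStmt) :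
    DeltaAcyclicStmt := by
  intro d
  obtain ⟨n₀, hn₀⟩ := hF d
  refine ⟨max n₀ 3, fun n hn => ?_⟩
  obtain ⟨q₀, hq₀⟩ := hn₀ n (le_of_max_le_left hn)
  have hn3 : 3 ≤ n := le_of_max_le_right hn
  have hpos : 0 < n := by omega
  refine ⟨q₀ + 1, fun p _ hp _ i hi z hz hcyc => ?_⟩
  classical
  obtain ⟨Φ, hΦ, hgood, hface⟩ := hM n hn3 p
  have hne : Nonempty (Vert (hInf p n)) := ⟨pt (hInf p n) 1 ⟨0, hpos⟩⟩
  set Ψ := Function.invFun Φ with hΨ
  have hΦΨ : ∀ W, Good p n W → Φ (Ψ W) = W := fun W hW =>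
    Function.invFun_eq ((hgood W).1 hW)
  have hz' : On (fun σ => GSimp σ ∧ σ.card = i) (push Φ z) := on_push hz fun σ hσ =>
    ⟨(hface inferInstance σ).1 hσ.1, by rw [card_image_of_injective _ hΦ, hσ.2]⟩
  have hcyc' : bd (push Φ z) = 0 := by rw [bd_push hΦ, hcyc, map_zero]
  obtain ⟨y, hy, hybd⟩ := hB n hpos p inferInstance i (push Φ z)
    (hz'.mono fun σ h => ⟨h.1.1, h.2⟩) hcyc'
  have hlow : ∀ L : BVert p n, ¬ Good p n L → ∀ ζ : Ch (BVert p n),
      On (fun σ => LowSimp L σ ∧ σ.card = i) ζ → bd ζ = 0 →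
        ∃ η : Ch (BVert p n), On (fun σ => LowSimp L σ ∧ σ.card = i + 1) η ∧ bd η = ζ :=
    fun L hL ζ h1 h2 => exists_lower L hpos (fun _ w hw hwc =>
      hq₀ (ZMod p) (Fin n → ZMod p) inferInstance (flag p n) flag_mono
        (fun j hj => finrank_flag hj) (by rw [Nat.card_zmod]; omega) _
        (isGreedy_drop L hG hpos hL) i hi w hw hwc) h1 h2
  obtain ⟨y', hy', hy'bd⟩ : ∃ y' : Ch (BVert p n),
      On (fun σ => GSimp σ ∧ σ.card = i + 1) y' ∧ bd y' = push Φ z := by
    by_cases hall : ((y.support.biUnion id).image hgt).Nonempty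
    · exact descend hpos hz' hlow (((y.support.biUnion id).image hgt).max' hall) y hy hybd
        fun σ hσ W hW _ => le_max' ((y.support.biUnion id).image hgt) _
          (mem_image_of_mem _ (mem_biUnion.2 ⟨σ, hσ, hW⟩))
    · exact ⟨y, fun σ hσ => ⟨⟨(hy σ hσ).1, fun W hW => absurd
        ⟨_, mem_image_of_mem _ (mem_biUnion.2 ⟨σ, hσ, hW⟩)⟩ hall⟩, (hy σ hσ).2⟩, hybd⟩
  have hinv : ∀ σ : Finset (BVert p n), GSimp σ → Set.InjOn Ψ σ := fun σ hσ a ha b hb e => by
    rw [← hΦΨ a (hσ.2 a ha), e, hΦΨ b (hσ.2 b hb)]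
  refine ⟨push Ψ y', on_push hy' fun σ hσ => ⟨?_, ?_⟩, ?_⟩
  · refine (hface inferInstance _).2 ?_
    rw [image_image, image_congr (f := Φ ∘ Ψ) (g := id) fun W hW => hΦΨ W (hσ.1.2 W hW), image_id]
    exact hσ.1
  · rw [card_image_of_injOn (hinv σ hσ.1), hσ.2]
  · rw [bd_push_on (hy'.mono fun σ h => hinv σ h.1), hy'bd,
      push_push_on (fun σ _ v _ => Function.leftInverse_invFun hΦ v)]

end Vale.Agent.P067.Alld.Bld.Descent
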